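import Mathlib

/-! Covering corollaries: separated nets and the Besicovitch weak-type inequality for two
arbitrary measures (block BES of P214). -/

open MeasureTheory Set Metric Module
open scoped ENNReal Topology Pointwise

namespace Vale.Agent.P214.BES

section Net

variable {F : Type*} [NormedAddCommGroup F] [NormedSpace ℝ F] [FiniteDimensional ℝ F]

/-- A `t`-separated set in a ball of radius `R t` has at most `(2R+1)^m` elements. -/
theorem card_le_of_sep (s : Finset F) (z : F) {t R : ℝ} (ht : 0 < t) (hR : 0 ≤ R)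
    (hs : ∀ c ∈ s, dist c z ≤ R * t)
    (h : ∀ c ∈ s, ∀ d ∈ s, c ≠ d → t ≤ dist c d) :
    (s.card : ℝ) ≤ (2 * R + 1) ^ finrank ℝ F := by
  borelize F
  let μ : Measure F := Measure.addHaar
  have D : Set.Pairwise (s : Set F) (Function.onFun Disjoint fun c => ball (c : F) (t / 2)) := by
    rintro c hc d hd hcd
    apply ball_disjoint_ball
    have := h c hc d hd hcd
    linarith
  have A_subset : (⋃ c ∈ s, ball (c : F) (t / 2)) ⊆ ball z ((2 * R + 1) * (t / 2)) := by
    refine iUnion₂_subset fun x hx => ?_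
    apply ball_subset_ball'
    have := hs x hx
    linarith
  have hpos : 0 < (2 * R + 1) * (t / 2) := by positivity
  have I : (s.card : ℝ≥0∞) * ENNReal.ofReal ((t / 2) ^ finrank ℝ F) * μ (ball 0 1) ≤
      ENNReal.ofReal (((2 * R + 1) * (t / 2)) ^ finrank ℝ F) * μ (ball 0 1) := by
    calc (s.card : ℝ≥0∞) * ENNReal.ofReal ((t / 2) ^ finrank ℝ F) * μ (ball 0 1)
        = μ (⋃ c ∈ s, ball (c : F) (t / 2)) := by
          rw [measure_biUnion_finset D fun c _ => measurableSet_ball]
          have I : 0 < t / 2 := by positivity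
          simp only [μ.addHaar_ball_of_pos _ I]
          simp only [Finset.sum_const, nsmul_eq_mul, mul_assoc]
      _ ≤ μ (ball z ((2 * R + 1) * (t / 2))) := measure_mono A_subset
      _ = _ := by simp only [μ.addHaar_ball_of_pos _ hpos]
  have J : (s.card : ℝ≥0∞) * ENNReal.ofReal ((t / 2) ^ finrank ℝ F)
      ≤ ENNReal.ofReal (((2 * R + 1) * (t / 2)) ^ finrank ℝ F) :=
    (ENNReal.mul_le_mul_iff_left (measure_ball_pos _ _ zero_lt_one).ne' measure_ball_lt_top.ne).1 I
  have hnn : (0 : ℝ) ≤ (s.card : ℝ) := Nat.cast_nonneg _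
  have K : (s.card : ℝ) * (t / 2) ^ finrank ℝ F ≤ ((2 * R + 1) * (t / 2)) ^ finrank ℝ F := by
    rw [← ENNReal.ofReal_le_ofReal_iff (by positivity), ENNReal.ofReal_mul hnn,
      ENNReal.ofReal_natCast]
    exact J
  rw [mul_pow] at K
  exact le_of_mul_le_mul_right K (by positivity)

/-- Existence of a maximal `t`-separated net of a bounded set. -/
theorem exists_net (A : Set F) (hA : Bornology.IsBounded A) {t : ℝ} (ht : 0 < t) :
    ∃ P : Finset F, (P : Set F) ⊆ A ∧ (∀ c ∈ P, ∀ d ∈ P, c ≠ d → t ≤ dist c d) ∧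
      A ⊆ ⋃ p ∈ P, ball p t := by
  classical
  rcases A.eq_empty_or_nonempty with rfl | ⟨z, hz⟩
  · exact ⟨∅, by simp, by simp, by simp⟩
  obtain ⟨R₀, hR₀⟩ := hA.subset_closedBall z
  set R : ℝ := max (R₀ / t) 0 with hR
  have hR0 : 0 ≤ R := le_max_right _ _
  have hbd : ∀ c ∈ A, dist c z ≤ R * t := by
    intro c hc
    have h1 : dist c z ≤ R₀ := hR₀ hc
    have h2 : R₀ / t ≤ R := le_max_left _ _
    calc dist c z ≤ R₀ := h1
      _ = R₀ / t * t := by field_simp
      _ ≤ R * t := by gcongr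
  -- the possible cardinalities
  let good : ℕ → Prop := fun k => ∃ P : Finset F, (P : Set F) ⊆ A ∧
    (∀ c ∈ P, ∀ d ∈ P, c ≠ d → t ≤ dist c d) ∧ P.card = k
  have hgood0 : good 0 := ⟨∅, by simp, by simp, by simp⟩
  have hbound : ∀ k, good k → k ≤ ⌊(2 * R + 1) ^ finrank ℝ F⌋₊ := by
    rintro k ⟨P, hPA, hPs, rfl⟩
    exact Nat.le_floor (card_le_of_sep P z ht hR0 (fun c hc => hbd c (hPA hc)) hPs)
  let K := Nat.findGreatest good ⌊(2 * R + 1) ^ finrank ℝ F⌋₊
  have hK : good K := Nat.findGreatest_spec (P := good) (Nat.zero_le _) hgood0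
  obtain ⟨P, hPA, hPs, hPc⟩ := hK
  refine ⟨P, hPA, hPs, fun x hx => ?_⟩
  by_contra hcon
  have hfar : ∀ p ∈ P, t ≤ dist x p := by
    intro p hp
    by_contra h
    exact hcon (mem_biUnion (Finset.mem_coe.2 hp) (by simpa using not_le.1 h))
  have hxP : x ∉ P := fun h => by
    have := hfar x h
    rw [dist_self] at this
    linarith
  have : good (K + 1) := by
    refine ⟨insert x P, ?_, ?_, ?_⟩
    · intro y hy
      rcases Finset.mem_insert.1 (Finset.mem_coe.1 hy) with rfl | hy
      · exact hx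
      · exact hPA hy
    · intro c hc d hd hcd
      rcases Finset.mem_insert.1 hc with hc1 | hc1
      · rcases Finset.mem_insert.1 hd with hd1 | hd1
        · exact absurd (hc1.trans hd1.symm) hcd
        · rw [hc1]; exact hfar d hd1
      · rcases Finset.mem_insert.1 hd with hd1 | hd1
        · rw [hd1, dist_comm]; exact hfar c hc1
        · exact hPs c hc1 d hd1 hcd
    · rw [Finset.card_insert_of_notMem hxP, hPc]
  have h2 := Nat.le_findGreatest (hbound _ this) this
  exact absurd h2 (by simp [K])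

/-- Overlap bound for balls centred in a `t`-separated set. -/
theorem overlap_le (P : Finset F) {t R : ℝ} (ht : 0 < t) (hR : 0 ≤ R)
    (h : ∀ c ∈ P, ∀ d ∈ P, c ≠ d → t ≤ dist c d) (x : F) (S : Finset F) (hS : S ⊆ P)
    (hx : ∀ p ∈ S, dist p x ≤ R * t) : (S.card : ℝ) ≤ (2 * R + 1) ^ finrank ℝ F :=
  card_le_of_sep S x ht hR hx fun c hc d hd hcd => h c (hS hc) d (hS hd) hcd

variable [MeasurableSpace F]

/-- Bounded overlap in integrated form. -/
theorem sum_lintegral_le (μ : Measure F) (P : Finset F) {t R : ℝ} (ht : 0 < t) (hR : 0 ≤ R)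
    (h : ∀ c ∈ P, ∀ d ∈ P, c ≠ d → t ≤ dist c d) (B : F → Set F)
    (hB : ∀ p ∈ P, B p ⊆ closedBall p (R * t)) (hBm : ∀ p ∈ P, MeasurableSet (B p))
    (U : Set F) (hBU : ∀ p ∈ P, B p ⊆ U) (f : F → ℝ≥0∞) :
    ∑ p ∈ P, ∫⁻ x in B p, f x ∂μ
      ≤ ENNReal.ofReal ((2 * R + 1) ^ finrank ℝ F) * ∫⁻ x in U, f x ∂μ := by
  classical
  have h1 : ∀ p ∈ P, ∫⁻ x in B p, f x ∂μ = ∫⁻ x in U, (B p).indicator f x ∂μ := by
    intro p hp
    rw [lintegral_indicator (hBm p hp), Measure.restrict_restrict (hBm p hp),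
      inter_eq_self_of_subset_left (hBU p hp)]
  have hCtop : ENNReal.ofReal ((2 * R + 1) ^ finrank ℝ F) ≠ ⊤ := ENNReal.ofReal_ne_top
  -- pointwise bound
  have hpt : ∀ x, ∑ p ∈ P, (B p).indicator f x
      ≤ ENNReal.ofReal ((2 * R + 1) ^ finrank ℝ F) * f x := by
    intro x
    have e1 : ∑ p ∈ P, (B p).indicator f x
        = ∑ p ∈ P.filter (fun p => x ∈ B p), f x := by
      rw [Finset.sum_filter]
      exact Finset.sum_congr rfl fun p _ => by by_cases hx : x ∈ B p <;> simp [hx]
    rw [e1, Finset.sum_const, nsmul_eq_mul]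
    gcongr
    have := overlap_le P ht hR h x (P.filter (fun p => x ∈ B p)) (Finset.filter_subset _ _)
      (fun p hp => by
        have h2 := Finset.mem_filter.1 hp
        have h3 := hB p h2.1 h2.2
        rw [mem_closedBall, dist_comm] at h3
        exact h3)
    rw [← ENNReal.ofReal_natCast]
    exact ENNReal.ofReal_le_ofReal this
  calc ∑ p ∈ P, ∫⁻ x in B p, f x ∂μ = ∑ p ∈ P, ∫⁻ x in U, (B p).indicator f x ∂μ :=
        Finset.sum_congr rfl h1
    _ ≤ ∫⁻ x in U, ∑ p ∈ P, (B p).indicator f x ∂μ := by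
        -- superadditivity of the lower integral
        clear h1 hpt
        refine le_trans ?_ le_rfl
        induction P using Finset.induction_on with
        | empty => simp
        | insert a s ha ih =>
          have ih' := ih (fun c hc d hd => h c (Finset.mem_insert_of_mem hc) d
            (Finset.mem_insert_of_mem hd)) (fun p hp => hB p (Finset.mem_insert_of_mem hp))
            (fun p hp => hBm p (Finset.mem_insert_of_mem hp))
            (fun p hp => hBU p (Finset.mem_insert_of_mem hp))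
          rw [Finset.sum_insert ha]
          calc _ ≤ ∫⁻ x in U, (B a).indicator f x ∂μ
                + ∫⁻ x in U, ∑ p ∈ s, (B p).indicator f x ∂μ := by gcongr
            _ ≤ ∫⁻ x in U, ((B a).indicator f x + ∑ p ∈ s, (B p).indicator f x) ∂μ :=
                le_lintegral_add _ _
            _ = _ := by
                refine lintegral_congr fun x => ?_
                rw [Finset.sum_insert ha]
    _ ≤ ∫⁻ x in U, ENNReal.ofReal ((2 * R + 1) ^ finrank ℝ F) * f x ∂μ :=
        lintegral_mono fun x => hpt x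
    _ = _ := lintegral_const_mul' _ _ hCtop

/-- Bounded overlap for measures of sets. -/
theorem sum_measure_le (μ : Measure F) (P : Finset F) {t R : ℝ} (ht : 0 < t) (hR : 0 ≤ R)
    (h : ∀ c ∈ P, ∀ d ∈ P, c ≠ d → t ≤ dist c d) (B : F → Set F)
    (hB : ∀ p ∈ P, B p ⊆ closedBall p (R * t)) (hBm : ∀ p ∈ P, MeasurableSet (B p))
    (U : Set F) (hBU : ∀ p ∈ P, B p ⊆ U) :
    ∑ p ∈ P, μ (B p) ≤ ENNReal.ofReal ((2 * R + 1) ^ finrank ℝ F) * μ U := by
  have := sum_lintegral_le μ P ht hR h B hB hBm U hBU (fun _ => 1)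
  simpa using this

end Net

section Besicovitch

variable {F : Type*} [NormedAddCommGroup F] [NormedSpace ℝ F] [FiniteDimensional ℝ F]

/-- the number of families in the Besicovitch covering theorem -/
noncomputable def nB (F : Type*) [NormedAddCommGroup F] [NormedSpace ℝ F] : ℕ :=
  5 ^ finrank ℝ F

/-- Besicovitch covering theorem: closed balls centred at every point of `A`, radii bounded; then
`A` is covered by at most `nB F` countable disjoint subfamilies. -/
theorem besicovitch_families (A : Set F) (r : F → ℝ) (R₀ : ℝ) (rpos : ∀ x ∈ A, 0 < r x)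
    (rle : ∀ x ∈ A, r x ≤ R₀) :
    ∃ s : Fin (nB F) → Set F, (∀ i, (s i).Countable) ∧ (∀ i, s i ⊆ A) ∧
      (∀ i, (s i).PairwiseDisjoint fun x => closedBall x (r x)) ∧
      A ⊆ ⋃ i, ⋃ x ∈ s i, ball x (r x) := by
  classical
  let q : Besicovitch.BallPackage A F :=
    { c := fun x => x
      r := fun x => r x
      rpos := fun x => rpos x x.2
      r_bound := R₀
      r_le := fun x => rle x x.2 }
  obtain ⟨s, hs, hcov⟩ := Besicovitch.exist_disjoint_covering_families
    (Besicovitch.one_lt_goodτ F) (Besicovitch.isEmpty_satelliteConfig_multiplicity F) q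
  have hmul : Besicovitch.multiplicity F ≤ nB F := Besicovitch.multiplicity_le
  let s' : Fin (nB F) → Set F := fun i =>
    if h : (i : ℕ) < Besicovitch.multiplicity F then (Subtype.val '' (s ⟨i, h⟩)) else ∅
  have hsub : ∀ i, s' i ⊆ A := by
    intro i x hx
    by_cases h : (i : ℕ) < Besicovitch.multiplicity F
    · simp only [s', h, dif_pos] at hx
      obtain ⟨y, -, rfl⟩ := hx
      exact y.2
    · simp [s', h] at hx
  have hdisj : ∀ i, (s' i).PairwiseDisjoint fun x => closedBall x (r x) := by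
    intro i
    by_cases h : (i : ℕ) < Besicovitch.multiplicity F
    · simp only [s', h, dif_pos]
      rintro _ ⟨x, hx, rfl⟩ _ ⟨y, hy, rfl⟩ hxy
      exact hs ⟨i, h⟩ hx hy (fun e => hxy (by rw [e]))
    · simp [s', h]
  refine ⟨s', fun i => ?_, hsub, hdisj, ?_⟩
  · -- countability
    refine (hdisj i).countable_of_nonempty_interior fun x hx => ?_
    refine ⟨x, ?_⟩
    exact mem_interior.2 ⟨ball x (r x), ball_subset_closedBall, isOpen_ball,
      mem_ball_self (rpos x (hsub i hx))⟩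
  · intro x hx
    have : (x : F) ∈ range q.c := ⟨⟨x, hx⟩, rfl⟩
    obtain ⟨i, hi⟩ := mem_iUnion.1 (hcov this)
    obtain ⟨y, hy, hxy⟩ := mem_iUnion₂.1 hi
    have hlt : (i : ℕ) < nB F := lt_of_lt_of_le i.2 hmul
    refine mem_iUnion.2 ⟨⟨i, hlt⟩, mem_iUnion₂.2 ⟨y, ?_, hxy⟩⟩
    have : ((⟨i, hlt⟩ : Fin (nB F)) : ℕ) < Besicovitch.multiplicity F := i.2
    simp only [s', this, dif_pos]
    exact ⟨y, hy, rfl⟩

variable [MeasurableSpace F] [BorelSpace F]

/-- Besicovitch weak-type inequality for two arbitrary measures (no doubling): if around every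
point of `A` there is a centred closed ball on which `ν ≤ σ`, then `ν A ≤ nB σ(U)` for every `U`
containing these balls. -/
theorem weak_type (ν σ : Measure F) (A U : Set F) (r : F → ℝ) (R₀ : ℝ)
    (rpos : ∀ x ∈ A, 0 < r x) (rle : ∀ x ∈ A, r x ≤ R₀)
    (hle : ∀ x ∈ A, ν (closedBall x (r x)) ≤ σ (closedBall x (r x)))
    (hU : ∀ x ∈ A, closedBall x (r x) ⊆ U) :
    ν A ≤ (nB F : ℝ≥0∞) * σ U := by
  obtain ⟨s, hcount, hsub, hdisj, hcov⟩ := besicovitch_families A r R₀ rpos rle
  have h1 : ∀ i, ν (⋃ x ∈ s i, ball x (r x)) ≤ σ U := by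
    intro i
    calc ν (⋃ x ∈ s i, ball x (r x)) ≤ ν (⋃ x ∈ s i, closedBall x (r x)) := by
          apply measure_mono
          exact iUnion₂_mono fun x _ => ball_subset_closedBall
      _ ≤ ∑' x : s i, ν (closedBall (x : F) (r x)) := measure_biUnion_le _ (hcount i) _
      _ ≤ ∑' x : s i, σ (closedBall (x : F) (r x)) :=
          ENNReal.tsum_le_tsum fun x => hle x (hsub i x.2)
      _ = σ (⋃ x ∈ s i, closedBall x (r x)) :=
          (measure_biUnion (hcount i) (hdisj i) fun x _ => measurableSet_closedBall).symm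
      _ ≤ σ U := measure_mono (iUnion₂_subset fun x hx => hU x (hsub i hx))
  calc ν A ≤ ν (⋃ i, ⋃ x ∈ s i, ball x (r x)) := measure_mono hcov
    _ ≤ ∑ i, ν (⋃ x ∈ s i, ball x (r x)) := by
        refine (measure_iUnion_le _).trans ?_
        rw [tsum_fintype]
    _ ≤ ∑ _i : Fin (nB F), σ U := Finset.sum_le_sum fun i _ => h1 i
    _ = (nB F : ℝ≥0∞) * σ U := by simp

/-- Weak type (1,1) of the centred maximal function of `σ` relative to `ν`. -/
theorem weak_type_set (ν σ : Measure F) (R₀ : ℝ) (lam : ℝ≥0∞) (h0 : lam ≠ 0)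
    (htop : lam ≠ ⊤) (U : Set F) (A : Set F)
    (hA : ∀ x ∈ A, ∃ t, 0 < t ∧ t ≤ R₀ ∧ closedBall x t ⊆ U ∧
      lam * ν (closedBall x t) ≤ σ (closedBall x t)) :
    ν A ≤ (nB F : ℝ≥0∞) * (σ U / lam) := by
  classical
  choose! r hr using hA
  have h := weak_type ν (lam⁻¹ • σ) A U r R₀ (fun x hx => (hr x hx).1)
    (fun x hx => (hr x hx).2.1) (fun x hx => ?_) (fun x hx => (hr x hx).2.2.1)
  · simpa [ENNReal.div_eq_inv_mul] using h
  · have h2 := (hr x hx).2.2.2
    simp only [Measure.smul_apply, smul_eq_mul]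
    calc ν (closedBall x (r x)) = lam⁻¹ * (lam * ν (closedBall x (r x))) := by
          rw [← mul_assoc, ENNReal.inv_mul_cancel h0 htop, one_mul]
      _ ≤ lam⁻¹ * σ (closedBall x (r x)) := by gcongr

/-- Maximal inequality for a density `w` with respect to an arbitrary measure `ν`. -/
theorem weak_type_fun (ν : Measure F) (w : F → ℝ≥0∞) (R₀ : ℝ) (lam : ℝ≥0∞)
    (h0 : lam ≠ 0) (htop : lam ≠ ⊤) (U : Set F) (hUm : MeasurableSet U) (A : Set F)
    (hA : ∀ x ∈ A, ∃ t, 0 < t ∧ t ≤ R₀ ∧ closedBall x t ⊆ U ∧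
      lam * ν (closedBall x t) ≤ ∫⁻ y in closedBall x t, w y ∂ν) :
    ν A ≤ (nB F : ℝ≥0∞) * ((∫⁻ y in U, w y ∂ν) / lam) := by
  have h := weak_type_set ν (ν.withDensity w) R₀ lam h0 htop U A (fun x hx => ?_)
  · rwa [withDensity_apply _ hUm] at h
  · obtain ⟨t, h1, h2, h3, h4⟩ := hA x hx
    exact ⟨t, h1, h2, h3, by rwa [withDensity_apply _ measurableSet_closedBall]⟩

/-- Vitali version: if around every point of `A` there is a ball `B_t(x)` with
`ν(B_{5t}(x)) ≤ σ(B_t(x))`, then `ν A ≤ σ U`. -/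
theorem vitali_type (ν σ : Measure F) (A U : Set F) (r : F → ℝ) (R₀ : ℝ)
    (rpos : ∀ x ∈ A, 0 < r x) (rle : ∀ x ∈ A, r x ≤ R₀)
    (hle : ∀ x ∈ A, ν (closedBall x (5 * r x)) ≤ σ (closedBall x (r x)))
    (hU : ∀ x ∈ A, closedBall x (r x) ⊆ U) :
    ν A ≤ σ U := by
  obtain ⟨u, hsub, hdisj, hcov⟩ := Vitali.exists_disjoint_subfamily_covering_enlargement_closedBall
    A (fun x => x) r R₀ rle 5 (by norm_num)
  have hcount : u.Countable := by
    refine hdisj.countable_of_nonempty_interior fun x hx => ?_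
    exact ⟨x, mem_interior.2 ⟨ball x (r x), ball_subset_closedBall, isOpen_ball,
      mem_ball_self (rpos x (hsub hx))⟩⟩
  calc ν A ≤ ν (⋃ x ∈ u, closedBall x (5 * r x)) := by
        refine measure_mono fun x hx => ?_
        obtain ⟨b, hb, hxb⟩ := hcov x hx
        exact mem_iUnion₂.2 ⟨b, hb, hxb (mem_closedBall_self (rpos x hx).le)⟩
    _ ≤ ∑' x : u, ν (closedBall (x : F) (5 * r x)) := measure_biUnion_le _ hcount _
    _ ≤ ∑' x : u, σ (closedBall (x : F) (r x)) :=
        ENNReal.tsum_le_tsum fun x => hle x (hsub x.2)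
    _ = σ (⋃ x ∈ u, closedBall x (r x)) :=
        (measure_biUnion hcount hdisj fun x _ => measurableSet_closedBall).symm
    _ ≤ σ U := measure_mono (iUnion₂_subset fun x hx => hU x (hsub hx))

end Besicovitch

end Vale.Agent.P214.BES
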